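import Vale.Agent.P096.Three.Move.Aug
import Vale.Agent.P104.Discrete.Proj

/-!
P096, moves: a moved algebra keeps the vector cyclic and separating.
-/

open scoped InnerProductSpace
open Filter Topology
open Vale.Agent.P096.Full.Reduce
open Vale.Agent.P104.Discrete

namespace Vale.Agent.P096.Three.Move

variable {H : Type} [NormedAddCommGroup H] [InnerProductSpace ℂ H] [CompleteSpace H]
variable {M : VonNeumannAlgebra H} {ξ : H}

/-- The inner product against a pair of conjugates. -/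
lemma inner_star_apply (a b : H →L[ℂ] H) (v : H) : ⟪a v, b v⟫_ℂ = ⟪v, (star a * b) v⟫_ℂ := by
  rw [mul_apply_eq_comp, ContinuousLinearMap.star_eq_adjoint,
    ContinuousLinearMap.adjoint_inner_right]

lemma inner_apply_apply (a : H →L[ℂ] H) (v w : H) : ⟪a v, a w⟫_ℂ = ⟪(star a * a) v, w⟫_ℂ := by
  rw [mul_apply_eq_comp, ContinuousLinearMap.star_eq_adjoint,
    ContinuousLinearMap.adjoint_inner_left]

lemma unitary_apply_norm {u : H →L[ℂ] H} (hu : u ∈ unitary (H →L[ℂ] H)) (v : H) : ‖u v‖ = ‖v‖ :=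
  Unitary.norm_map ⟨u, hu⟩ v

/-- A projection fixing the vector, commuting with the pins and the centre and near the commutant
is the identity. -/
theorem eq_one (P : Pinned M ξ) (hd : Dense {v : H | ∃ x ∈ M, x ξ = v}) {e : H →L[ℂ] H}
    (he : IsStarProjection e) (hξ : e ξ = ξ)
    (hg : ∀ g ∈ P.Γ.carrier, e * g = g * e ∧ e * P.r g = P.r g * e)
    (hZ : ∀ z ∈ M, z ∈ M.commutant → e * z = z * e) {y : H →L[ℂ] H} (hy : y ∈ M.commutant)
    {ε : ℝ} (hye : ‖e - y‖ ≤ ε) (hε : ε < 1 / 2) : e = 1 := by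
  have hε0 : 0 ≤ ε := (norm_nonneg _).trans hye
  have hes := he.isSelfAdjoint.star_eq
  have hee := he.isIdempotentElem.eq
  have hcy : ∀ x ∈ M, x * y = y * x := VonNeumannAlgebra.mem_commutant_iff.1 hy
  have hnear : ∀ v : H, RCLike.re ⟪v, (1 - e) v⟫_ℂ ≤ RCLike.re ⟪v, (1 - y) v⟫_ℂ + ε * ‖v‖ ^ 2 ∧
      RCLike.re ⟪v, (1 - y) v⟫_ℂ ≤ RCLike.re ⟪v, (1 - e) v⟫_ℂ + ε * ‖v‖ ^ 2 := fun v => by
    have h1 : |RCLike.re ⟪v, (e - y) v⟫_ℂ| ≤ ε * ‖v‖ ^ 2 := by
      refine (RCLike.abs_re_le_norm _).trans ((norm_inner_le_norm _ _).trans ?_)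
      calc ‖v‖ * ‖(e - y) v‖ ≤ ‖v‖ * (ε * ‖v‖) :=
            mul_le_mul_of_nonneg_left ((e - y).le_of_opNorm_le hye v) (norm_nonneg _)
        _ = _ := by ring
    have h2 : RCLike.re ⟪v, (e - y) v⟫_ℂ =
        RCLike.re ⟪v, (1 - y) v⟫_ℂ - RCLike.re ⟪v, (1 - e) v⟫_ℂ := by
      simp only [sub_apply, inner_sub_right, map_sub]
      ring
    rw [abs_le, h2] at h1
    constructor <;> linarith
  have main : ∀ x ∈ M, ‖(1 - e) (x ξ)‖ ^ 2 ≤ 2 * ε * ‖x ξ‖ ^ 2 := by
    intro x hx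
    obtain ⟨z, hzM, hz', hlim⟩ := P.central (star x * x) (mul_mem (star_mem hx) hx)
    set E := fun m => avg P.Γ m fun g => g * (star x * x) * star g with hE
    set F : (H →L[ℂ] H) → (H →L[ℂ] H) := fun g => g * x * star g with hF
    have hFM : ∀ g ∈ P.Γ.carrier, F g ∈ M := fun g hg' =>
      mul_mem (mul_mem (P.memM g hg') hx) (star_mem (P.memM g hg'))
    have hFF : ∀ g ∈ P.Γ.carrier, g * (star x * x) * star g = star (F g) * F g := fun g hg' => by
      simp only [F, star_mul, star_star, mul_assoc]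
      rw [← mul_assoc (star g) g, (Unitary.mem_iff.1 (Groups.unitary_carrier hg')).1, one_mul]
    -- the conjugates have the same values
    have hFξ : ∀ g ∈ P.Γ.carrier, F g ξ = (g * P.r g) (x ξ) := fun g hg' => by
      simp only [F, mul_apply_eq_comp]
      rw [← mul_apply_eq_comp (P.r g), ← r_comm P hd hg' hx, mul_apply_eq_comp, P.r_ξ g hg']
    have hπ : ∀ g ∈ P.Γ.carrier, g * P.r g ∈ unitary (H →L[ℂ] H) := fun g hg' =>
      mul_mem (Groups.unitary_carrier hg') (P.r_unitary g hg')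
    have hFn : ∀ g ∈ P.Γ.carrier, ‖F g ξ‖ = ‖x ξ‖ := fun g hg' => by
      rw [hFξ g hg', unitary_apply_norm (hπ g hg')]
    have hFe : ∀ g ∈ P.Γ.carrier,
        ⟪F g ξ, (1 - e) (F g ξ)⟫_ℂ = ⟪x ξ, (1 - e) (x ξ)⟫_ℂ := fun g hg' => by
      have c : (1 - e) * (g * P.r g) = (g * P.r g) * (1 - e) := by
        simp only [sub_mul, mul_sub, one_mul, mul_one]
        rw [← mul_assoc, (hg g hg').1, mul_assoc, (hg g hg').2, ← mul_assoc]
      have c' : (1 - e) ((g * P.r g) (x ξ)) = (g * P.r g) ((1 - e) (x ξ)) :=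
        DFunLike.congr_fun c (x ξ)
      rw [hFξ g hg', c', ContinuousLinearMap.inner_map_map_of_mem_unitary (hπ g hg')]
    -- the averaged inequality
    have hstep : ∀ m, RCLike.re ⟪x ξ, (1 - e) (x ξ)⟫_ℂ ≤
        RCLike.re ⟪E m ξ, (1 - y) ξ⟫_ℂ + ε * ‖x ξ‖ ^ 2 := fun m => by
      have h1 : ∀ g ∈ P.Γ.G m, RCLike.re ⟪x ξ, (1 - e) (x ξ)⟫_ℂ ≤
          RCLike.re ⟪(g * (star x * x) * star g) ξ, (1 - y) ξ⟫_ℂ + ε * ‖x ξ‖ ^ 2 := fun g hgm => by
        have hg' : g ∈ P.Γ.carrier := ⟨m, hgm⟩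
        have := (hnear (F g ξ)).1
        rw [hFe g hg', hFn g hg'] at this
        have c : (1 - y) (F g ξ) = F g ((1 - y) ξ) := DFunLike.congr_fun
          (show (1 - y) * F g = F g * (1 - y) by
            simp only [sub_mul, mul_sub, one_mul, mul_one, hcy _ (hFM g hg')]) ξ
        rw [c, inner_apply_apply, ← hFF g hg'] at this
        exact this
      have hc : (0 : ℝ) < (P.Γ.G m).card := by
        exact_mod_cast Finset.card_pos.2 ⟨1, P.Γ.one_mem m⟩
      have h2 := Finset.sum_le_sum h1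
      rw [Finset.sum_const, Finset.sum_add_distrib, Finset.sum_const, nsmul_eq_mul,
        nsmul_eq_mul] at h2
      have e1 : RCLike.re ⟪E m ξ, (1 - y) ξ⟫_ℂ = ((P.Γ.G m).card : ℝ)⁻¹ *
          ∑ g ∈ P.Γ.G m, RCLike.re ⟪(g * (star x * x) * star g) ξ, (1 - y) ξ⟫_ℂ := by
        simp only [E, avg, smul_apply, sum_apply, inner_smul_left, sum_inner]
        rw [map_inv₀, Complex.conj_natCast, show ((P.Γ.G m).card : ℂ)⁻¹ =
          ((((P.Γ.G m).card : ℝ)⁻¹ : ℝ) : ℂ) by push_cast; ring, RCLike.re_to_complex,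
          Complex.re_ofReal_mul, Complex.re_sum]
        rfl
      rw [e1]
      refine le_of_mul_le_mul_left ?_ hc
      rw [mul_add, ← mul_assoc, mul_inv_cancel₀ hc.ne', one_mul]
      linarith
    have hlimit : RCLike.re ⟪x ξ, (1 - e) (x ξ)⟫_ℂ ≤
        RCLike.re ⟪z ξ, (1 - y) ξ⟫_ℂ + ε * ‖x ξ‖ ^ 2 :=
      ge_of_tendsto' ((((RCLike.continuous_re.tendsto _).comp
        (((continuous_id.inner continuous_const).tendsto _).comp (hlim ξ)))).add_const _) hstep
    -- the limit is positive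
    have hpos : 0 ≤ z := by
      rw [ContinuousLinearMap.nonneg_iff_isPositive, ContinuousLinearMap.isPositive_iff_complex]
      intro v
      have t : Tendsto (fun m => ⟪E m v, v⟫_ℂ) atTop (𝓝 ⟪z v, v⟫_ℂ) :=
        ((continuous_id.inner continuous_const).tendsto _).comp (hlim v)
      have hv : ∀ m, ((RCLike.re ⟪E m v, v⟫_ℂ : ℝ) : ℂ) = ⟪E m v, v⟫_ℂ ∧
          0 ≤ RCLike.re ⟪E m v, v⟫_ℂ := fun m => by
        have e2 : ⟪E m v, v⟫_ℂ = ((((P.Γ.G m).card : ℝ)⁻¹ *
            ∑ g ∈ P.Γ.G m, ‖F g v‖ ^ 2 : ℝ) : ℂ) := by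
          simp only [E, avg, smul_apply, sum_apply, inner_smul_left, sum_inner]
          rw [map_inv₀, Complex.conj_natCast]
          push_cast
          refine congrArg _ (Finset.sum_congr rfl fun g hgm => ?_)
          show ⟪(g * (star x * x) * star g) v, v⟫_ℂ = _
          rw [hFF g ⟨m, hgm⟩, ← inner_apply_apply, inner_self_eq_norm_sq_to_K]
          rfl
        rw [e2, RCLike.re_to_complex, Complex.ofReal_re]
        exact ⟨rfl, by positivity⟩
      exact ⟨tendsto_nhds_unique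
        (((Complex.continuous_ofReal.comp RCLike.continuous_re).tendsto _).comp t)
        (t.congr fun m => (hv m).1.symm),
        ge_of_tendsto' ((RCLike.continuous_re.tendsto _).comp t) fun m => (hv m).2⟩
    set c := CFC.sqrt z with hc
    have hcc : c * c = z := CFC.sqrt_mul_sqrt_self z hpos
    have hcs : star c = c := (CFC.sqrt_nonneg z).isSelfAdjoint.star_eq
    have hce : ∀ a, Commute z a → Commute c a := fun a ha => by
      rw [hc, CFC.sqrt_eq_cfc]
      exact ha.cfc_nnreal _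
    have hcey : Commute c y := hce y (show z * y = y * z from hcy z hzM)
    have hcee : Commute c e := hce e (show z * e = e * z from (hZ z hzM hz').symm)
    have h3 : RCLike.re ⟪z ξ, (1 - y) ξ⟫_ℂ ≤ ε * ‖c ξ‖ ^ 2 := by
      have h4 := (hnear (c ξ)).2
      have h5 : (1 - e) (c ξ) = 0 := by
        rw [sub_apply, one_apply_eq_self, ← mul_apply_eq_comp, ← hcee.eq, mul_apply_eq_comp, hξ,
          sub_self]
      rw [h5, inner_zero_right, map_zero, zero_add] at h4
      refine le_trans (le_of_eq ?_) h4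
      rw [← hcc, mul_apply_eq_comp]
      nth_rw 1 [← hcs]
      rw [ContinuousLinearMap.star_eq_adjoint, ContinuousLinearMap.adjoint_inner_left,
        ← mul_apply_eq_comp c, show c * (1 - y) = (1 - y) * c by
          simp only [sub_mul, mul_sub, one_mul, mul_one, hcey.eq], mul_apply_eq_comp]
    have h6 : ‖c ξ‖ ^ 2 = ‖x ξ‖ ^ 2 := by
      have cξ : Continuous fun w : H => ⟪ξ, w⟫_ℂ := continuous_const.inner continuous_id
      have t := (RCLike.continuous_re.tendsto _).comp ((cξ.tendsto _).comp (hlim ξ))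
      have e3 : RCLike.re ⟪ξ, z ξ⟫_ℂ = ‖c ξ‖ ^ 2 := by
        rw [← hcc, ← inner_self_eq_norm_sq (𝕜 := ℂ), inner_star_apply, hcs]
      rw [← e3]
      refine tendsto_nhds_unique t (tendsto_const_nhds.congr fun m => ?_)
      simp only [Function.comp_apply, id_eq, avg, smul_apply, sum_apply, inner_smul_right,
        inner_sum]
      rw [Finset.sum_congr rfl fun g hgm => show ⟪ξ, (g * (star x * x) * star g) ξ⟫_ℂ =
        ((‖x ξ‖ ^ 2 : ℝ) : ℂ) by
          rw [hFF g ⟨m, hgm⟩, ← inner_star_apply, inner_self_eq_norm_sq_to_K, hFn g ⟨m, hgm⟩]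
          norm_cast]
      rw [Finset.sum_const, nsmul_eq_mul, ← mul_assoc, inv_mul_cancel₀ (card_ne m), one_mul,
        RCLike.re_to_complex, Complex.ofReal_re]
    have h7 : RCLike.re ⟪x ξ, (1 - e) (x ξ)⟫_ℂ = ‖(1 - e) (x ξ)‖ ^ 2 := by
      rw [← inner_self_eq_norm_sq (𝕜 := ℂ) ((1 - e) (x ξ))]
      congr 1
      rw [inner_star_apply, he.one_sub.isSelfAdjoint.star_eq, he.one_sub.isIdempotentElem.eq]
    rw [h6] at h3
    linarith
  have hall : ∀ v : H, ‖(1 - e) v‖ ^ 2 ≤ 2 * ε * ‖v‖ ^ 2 := fun v => by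
    have hcl : IsClosed {v : H | ‖(1 - e) v‖ ^ 2 ≤ 2 * ε * ‖v‖ ^ 2} :=
      isClosed_le ((1 - e).continuous.norm.pow 2) ((continuous_norm.pow 2).const_mul (2 * ε))
    have hsub : {w : H | ∃ x ∈ M, x ξ = w} ⊆ {v : H | ‖(1 - e) v‖ ^ 2 ≤ 2 * ε * ‖v‖ ^ 2} :=
      fun w ⟨x, hx, hw⟩ => hw ▸ main x hx
    exact hcl.closure_subset (closure_mono hsub (hd v))
  refine (sub_eq_zero.1 (ContinuousLinearMap.ext fun v => ?_)).symm
  have h := hall ((1 - e) v)
  rw [← mul_apply_eq_comp, he.one_sub.isIdempotentElem.eq] at h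
  show (1 - e) v = 0
  refine norm_eq_zero.1 (pow_eq_zero_iff two_ne_zero |>.1 ?_)
  nlinarith [sq_nonneg ‖(1 - e) v‖]

/-- The projection on the orbit commutes with what preserves the orbit. -/
lemma spanProj_comm {V : Set H} {c : H →L[ℂ] H} (h : ∀ v ∈ V, c v ∈ V)
    (h' : ∀ v ∈ V, star c v ∈ V) : spanProj V * c = c * spanProj V := by
  have he := spanProj_isStarProjection (H := H) V
  have key : ∀ a : H →L[ℂ] H, (∀ v ∈ V, a v ∈ V) →
      spanProj V * a * spanProj V = a * spanProj V := fun a ha =>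
    ContinuousLinearMap.ext fun η => eqOn_cspan (spanProj V * a) a
      (fun v hv => spanProj_apply_mem (ha v hv)) (Submodule.starProjection_apply_mem _ η)
  have h1 := congrArg star (key (star c) h')
  simp only [star_mul, star_star, he.isSelfAdjoint.star_eq] at h1
  rw [← h1, ← mul_assoc, key c h]

/-- The orbit is dense when the projection on it is the identity. -/
lemma dense_of_spanProj (A : VonNeumannAlgebra H) (v : H)
    (h : spanProj {w | ∃ x ∈ A, x v = w} = 1) : Dense {w | ∃ x ∈ A, x v = w} := by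
  intro η
  have hη : η ∈ cspan {w | ∃ x ∈ A, x v = w} := by
    refine Submodule.starProjection_eq_self_iff.1 ?_
    exact DFunLike.congr_fun h η
  have hsub : (Submodule.span ℂ {w | ∃ x ∈ A, x v = w} : Set H) ⊆ {w | ∃ x ∈ A, x v = w} := by
    intro w hw
    induction hw using Submodule.span_induction with
    | mem w hw => exact hw
    | zero => exact ⟨0, zero_mem A, rfl⟩
    | add a b _ _ ha hb =>
      obtain ⟨x, hx, rfl⟩ := ha
      obtain ⟨x', hx', rfl⟩ := hb
      exact ⟨x + x', add_mem hx hx', rfl⟩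
    | smul l a _ ha =>
      obtain ⟨x, hx, rfl⟩ := ha
      exact ⟨l • x, Grp.smul_mem' l hx, rfl⟩
  rw [cspan, ← SetLike.mem_coe, Submodule.topologicalClosure_coe] at hη
  exact closure_mono hsub hη

end Vale.Agent.P096.Three.Move
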