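import Vale.Agent.P096.Three.Pinned
import Vale.Agent.P096.Full.Reduce.Groups.Criterion

/-!
P096, moves: the pins and their mirrors with countably many central symmetries added.
-/

open scoped InnerProductSpace
open Filter Topology
open Vale.Agent.P096.Full.Reduce
open Vale.Agent.P104 Vale.Agent.P104.Continuous

namespace Vale.Agent.P096.Three.Move

variable {H : Type} [NormedAddCommGroup H] [InnerProductSpace ℂ H] [CompleteSpace H]
variable {M : VonNeumannAlgebra H} {ξ : H}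

/-- An element of the commutant is determined by its value at a cyclic vector. -/
lemma eq_of_commutant (hd : Dense {v : H | ∃ x ∈ M, x ξ = v}) {a b : H →L[ℂ] H}
    (ha : a ∈ M.commutant) (hb : b ∈ M.commutant) (h : a ξ = b ξ) : a = b :=
  ContinuousLinearMap.ext fun v => congrFun (Continuous.ext_on hd a.continuous b.continuous (by
    rintro _ ⟨x, hx, rfl⟩
    rw [← mul_apply_eq_comp, ← mul_apply_eq_comp, ← VonNeumannAlgebra.mem_commutant_iff.1 ha x hx,
      ← VonNeumannAlgebra.mem_commutant_iff.1 hb x hx, mul_apply_eq_comp, mul_apply_eq_comp, h])) v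

section Mirror

variable (P : Pinned M ξ) (hd : Dense {v : H | ∃ x ∈ M, x ξ = v})
include hd

lemma r_comm {g x : H →L[ℂ] H} (hg : g ∈ P.Γ.carrier) (hx : x ∈ M) :
    x * P.r g = P.r g * x :=
  VonNeumannAlgebra.mem_commutant_iff.1 (P.r_mem g hg) x hx

lemma r_mul {g h : H →L[ℂ] H} (hg : g ∈ P.Γ.carrier) (hh : h ∈ P.Γ.carrier) :
    P.r g * P.r h = P.r (g * h) := by
  refine eq_of_commutant hd (mul_mem (P.r_mem g hg) (P.r_mem h hh))
    (P.r_mem _ (Groups.mul_carrier hg hh)) ?_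
  rw [mul_apply_eq_comp, P.r_ξ h hh, ← mul_apply_eq_comp,
    ← r_comm P hd hg (star_mem (P.memM h hh)), mul_apply_eq_comp, P.r_ξ g hg,
    P.r_ξ _ (Groups.mul_carrier hg hh), star_mul, mul_apply_eq_comp]

lemma r_one : P.r 1 = 1 :=
  eq_of_commutant hd (P.r_mem 1 Groups.one_carrier) (one_mem _)
    (by rw [P.r_ξ 1 Groups.one_carrier, star_one])

lemma r_star {g : H →L[ℂ] H} (hg : g ∈ P.Γ.carrier) : star (P.r g) = P.r (star g) := by
  have h := r_mul P hd hg (Groups.star_carrier hg)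
  rw [(Unitary.mem_iff.1 (Groups.unitary_carrier hg)).2, r_one P hd] at h
  calc star (P.r g) = star (P.r g) * (P.r g * P.r (star g)) := by rw [h, mul_one]
    _ = _ := by rw [← mul_assoc, (Unitary.mem_iff.1 (P.r_unitary g hg)).1, one_mul]

/-- The mirrored groups. -/
noncomputable def mirrors : Groups H :=
  letI : DecidableEq (H →L[ℂ] H) := Classical.decEq _
  { G := fun n => (P.Γ.G n).image P.r
    one_mem := fun n => Finset.mem_image.2 ⟨1, P.Γ.one_mem n, r_one P hd⟩
    mul_mem := fun n a ha b hb => by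
      obtain ⟨g, hg, rfl⟩ := Finset.mem_image.1 ha
      obtain ⟨h, hh, rfl⟩ := Finset.mem_image.1 hb
      exact Finset.mem_image.2 ⟨g * h, P.Γ.mul_mem n g hg h hh, (r_mul P hd ⟨n, hg⟩ ⟨n, hh⟩).symm⟩
    star_mem := fun n a ha => by
      obtain ⟨g, hg, rfl⟩ := Finset.mem_image.1 ha
      exact Finset.mem_image.2 ⟨star g, P.Γ.star_mem n g hg, (r_star P hd ⟨n, hg⟩).symm⟩
    mem_unitary := fun n a ha => by
      obtain ⟨g, hg, rfl⟩ := Finset.mem_image.1 ha
      exact P.r_unitary g ⟨n, hg⟩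
    mono := fun m n h => Finset.image_subset_image (P.Γ.mono m n h) }

lemma mem_mirrors {a : H →L[ℂ] H} :
    a ∈ (mirrors P hd).carrier ↔ ∃ g ∈ P.Γ.carrier, P.r g = a := by
  classical
  constructor
  · rintro ⟨n, hn⟩
    obtain ⟨g, hg, rfl⟩ := Finset.mem_image.1 hn
    exact ⟨g, ⟨n, hg⟩, rfl⟩
  · rintro ⟨g, ⟨n, hn⟩, rfl⟩
    refine ⟨n, ?_⟩
    exact Finset.mem_image_of_mem P.r hn

end Mirror

/-- Two commuting sequences of groups give the sequence of their products. -/
noncomputable def join (A B : Groups H) (hc : ∀ a ∈ A.carrier, ∀ b ∈ B.carrier, a * b = b * a) :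
    Groups H :=
  letI : DecidableEq (H →L[ℂ] H) := Classical.decEq _
  { G := fun n => Finset.image₂ (· * ·) (A.G n) (B.G n)
    one_mem := fun n =>
      Finset.mem_image₂.2 ⟨1, A.one_mem n, 1, B.one_mem n, one_mul 1⟩
    mul_mem := fun n x hx y hy => by
      obtain ⟨a, ha, b, hb, rfl⟩ := Finset.mem_image₂.1 hx
      obtain ⟨a', ha', b', hb', rfl⟩ := Finset.mem_image₂.1 hy
      refine Finset.mem_image₂.2 ⟨a * a', A.mul_mem n a ha a' ha', b * b', B.mul_mem n b hb b' hb',
        ?_⟩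
      rw [mul_assoc a a', ← mul_assoc a', hc a' ⟨n, ha'⟩ b ⟨n, hb⟩]
      simp only [mul_assoc]
    star_mem := fun n x hx => by
      obtain ⟨a, ha, b, hb, rfl⟩ := Finset.mem_image₂.1 hx
      refine Finset.mem_image₂.2 ⟨star a, A.star_mem n a ha, star b, B.star_mem n b hb, ?_⟩
      rw [star_mul, hc _ ⟨n, A.star_mem n a ha⟩ _ ⟨n, B.star_mem n b hb⟩]
    mem_unitary := fun n x hx => by
      obtain ⟨a, ha, b, hb, rfl⟩ := Finset.mem_image₂.1 hx
      exact mul_mem (A.mem_unitary n a ha) (B.mem_unitary n b hb)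
    mono := fun m n h => Finset.image₂_subset (A.mono m n h) (B.mono m n h) }

lemma mem_join {A B : Groups H} {hc : ∀ a ∈ A.carrier, ∀ b ∈ B.carrier, a * b = b * a}
    {x : H →L[ℂ] H} :
    x ∈ (join A B hc).carrier → ∃ a ∈ A.carrier, ∃ b ∈ B.carrier, a * b = x := by
  classical
  rintro ⟨n, hn⟩
  obtain ⟨a, ha, b, hb, rfl⟩ := Finset.mem_image₂.1 hn
  exact ⟨a, ⟨n, ha⟩, b, ⟨n, hb⟩, rfl⟩

lemma left_mem_join {A B : Groups H} {hc : ∀ a ∈ A.carrier, ∀ b ∈ B.carrier, a * b = b * a}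
    {a : H →L[ℂ] H} (ha : a ∈ A.carrier) : a ∈ (join A B hc).carrier := by
  classical
  obtain ⟨n, hn⟩ := ha
  exact ⟨n, Finset.mem_image₂.2 ⟨a, hn, 1, B.one_mem n, mul_one a⟩⟩

lemma right_mem_join {A B : Groups H} {hc : ∀ a ∈ A.carrier, ∀ b ∈ B.carrier, a * b = b * a}
    {b : H →L[ℂ] H} (hb : b ∈ B.carrier) : b ∈ (join A B hc).carrier := by
  classical
  obtain ⟨n, hn⟩ := hb
  exact ⟨n, Finset.mem_image₂.2 ⟨1, A.one_mem n, b, hn, one_mul b⟩⟩

/-- A central symmetry. -/
def IsCSym (M : VonNeumannAlgebra H) (s : H →L[ℂ] H) : Prop :=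
  s ∈ M ∧ (∀ x ∈ M, s * x = x * s) ∧ star s = s ∧ s * s = 1

lemma IsCSym.mul {s t : H →L[ℂ] H} (hs : IsCSym M s) (ht : IsCSym M t) : IsCSym M (s * t) := by
  obtain ⟨s1, s2, s3, s4⟩ := hs
  obtain ⟨t1, t2, t3, t4⟩ := ht
  refine ⟨mul_mem s1 t1, fun x hx => by rw [mul_assoc, t2 x hx, ← mul_assoc, s2 x hx, mul_assoc],
    by rw [star_mul, s3, t3, s2 t t1], ?_⟩
  rw [mul_assoc, ← mul_assoc t, ← s2 t t1, mul_assoc, t4, mul_one, s4]

lemma IsCSym.one : IsCSym M 1 :=
  ⟨one_mem M, fun x _ => by rw [one_mul, mul_one], star_one _, one_mul 1⟩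

lemma isCSym_proj {p : H →L[ℂ] H} (hp : IsCentralProj M p) : IsCSym M (1 - (2 : ℂ) • p) := by
  refine ⟨sub_mem (one_mem M) (Grp.smul_mem' 2 hp.2.1), fun x hx => ?_, ?_, ?_⟩
  · rw [sub_mul, mul_sub, one_mul, mul_one, smul_mul_assoc, mul_smul_comm, hp.2.2 x hx]
  · rw [star_sub, star_one, star_smul, hp.1.isSelfAdjoint.star_eq]
    simp
  · simp only [sub_mul, mul_sub, one_mul, mul_one, smul_mul_assoc, mul_smul_comm,
      hp.1.isIdempotentElem.eq]
    module

open Classical in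
/-- The products of the first `n` central symmetries. -/
noncomputable def syms (s : ℕ → (H →L[ℂ] H)) : ℕ → Finset (H →L[ℂ] H)
  | 0 => {1}
  | n + 1 => syms s n ∪ (syms s n).image (· * s n)

lemma syms_isCSym {s : ℕ → (H →L[ℂ] H)} (hs : ∀ i, IsCSym M (s i)) :
    ∀ n, ∀ x ∈ syms s n, IsCSym M x := by
  classical
  intro n
  induction n with
  | zero => intro x hx; rw [syms, Finset.mem_singleton] at hx; exact hx ▸ IsCSym.one
  | succ n ih =>
    intro x hx
    rcases Finset.mem_union.1 hx with h | h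
    · exact ih x h
    · obtain ⟨y, hy, rfl⟩ := Finset.mem_image.1 h
      exact (ih y hy).mul (hs n)

lemma syms_mul {s : ℕ → (H →L[ℂ] H)} (hs : ∀ i, IsCSym M (s i)) :
    ∀ n, ∀ x ∈ syms s n, ∀ y ∈ syms s n, x * y ∈ syms s n := by
  classical
  intro n
  induction n with
  | zero =>
    intro x hx y hy
    rw [syms, Finset.mem_singleton] at hx hy ⊢
    rw [hx, hy, one_mul]
  | succ n ih =>
    intro x hx y hy
    have hsn := hs n
    rcases Finset.mem_union.1 hx with h | h <;> rcases Finset.mem_union.1 hy with k | k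
    · exact Finset.mem_union_left _ (ih x h y k)
    · obtain ⟨b, hb, rfl⟩ := Finset.mem_image.1 k
      exact Finset.mem_union_right _
        (Finset.mem_image.2 ⟨x * b, ih x h b hb, mul_assoc x b _⟩)
    · obtain ⟨a, ha, rfl⟩ := Finset.mem_image.1 h
      refine Finset.mem_union_right _ (Finset.mem_image.2 ⟨a * y, ih a ha y k, ?_⟩)
      rw [mul_assoc a (s n), hsn.2.1 y (syms_isCSym hs n y k).1, mul_assoc]
    · obtain ⟨a, ha, rfl⟩ := Finset.mem_image.1 h
      obtain ⟨b, hb, rfl⟩ := Finset.mem_image.1 k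
      refine Finset.mem_union_left _ ?_
      have e : a * s n * (b * s n) = a * b := by
        rw [mul_assoc, ← mul_assoc (s n), hsn.2.1 b (syms_isCSym hs n b hb).1, mul_assoc b,
          hsn.2.2.2, mul_one]
      rw [e]
      exact ih a ha b hb

lemma one_mem_syms {s : ℕ → (H →L[ℂ] H)} : ∀ n, (1 : H →L[ℂ] H) ∈ syms s n := by
  classical
  intro n
  induction n with
  | zero => exact Finset.mem_singleton_self 1
  | succ n ih => exact Finset.mem_union_left _ ih

/-- The groups of the central symmetries. -/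
noncomputable def symGroups (s : ℕ → (H →L[ℂ] H)) (hs : ∀ i, IsCSym M (s i)) : Groups H where
  G := syms s
  one_mem := one_mem_syms
  mul_mem := syms_mul hs
  star_mem n x hx := by rw [(syms_isCSym hs n x hx).2.2.1]; exact hx
  mem_unitary n x hx := by
    obtain ⟨-, -, h3, h4⟩ := syms_isCSym hs n x hx
    exact Unitary.mem_iff.2 ⟨by rw [h3, h4], by rw [h3, h4]⟩
  mono m n h := by
    classical
    induction h with
    | refl => exact subset_rfl
    | step _ ih => exact ih.trans Finset.subset_union_left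

lemma symGroups_isCSym {s : ℕ → (H →L[ℂ] H)} {hs : ∀ i, IsCSym M (s i)} {x : H →L[ℂ] H}
    (hx : x ∈ (symGroups s hs).carrier) : IsCSym M x := by
  obtain ⟨n, hn⟩ := hx
  exact syms_isCSym hs n x hn

lemma mem_symGroups {s : ℕ → (H →L[ℂ] H)} {hs : ∀ i, IsCSym M (s i)} (i : ℕ) :
    s i ∈ (symGroups s hs).carrier := by
  classical
  exact ⟨i + 1, Finset.mem_union_right _
    (Finset.mem_image.2 ⟨1, one_mem_syms i, one_mul _⟩)⟩

lemma norm_star_apply_of_normal {T : H →L[ℂ] H} (h : star T * T = T * star T) (v : H) :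
    ‖star T v‖ = ‖T v‖ := by
  refine (sq_eq_sq₀ (norm_nonneg _) (norm_nonneg _)).1 ?_
  rw [← inner_self_eq_norm_sq (𝕜 := ℂ), ← inner_self_eq_norm_sq (𝕜 := ℂ)]
  congr 1
  calc ⟪star T v, star T v⟫_ℂ = ⟪v, (T * star T) v⟫_ℂ := by
        rw [ContinuousLinearMap.star_eq_adjoint, ContinuousLinearMap.adjoint_inner_left,
          mul_apply_eq_comp]
    _ = ⟪T v, T v⟫_ℂ := by
        rw [← h, mul_apply_eq_comp, ContinuousLinearMap.star_eq_adjoint,
          ContinuousLinearMap.adjoint_inner_right]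

/-- Countably many central projections generate the centre. -/
theorem exists_central_gen [TopologicalSpace.SeparableSpace H]
    (hd : Dense {v : H | ∃ x ∈ M, x ξ = v}) :
    ∃ D : ℕ → (H →L[ℂ] H), (∀ i, IsCentralProj M (D i)) ∧
      ∀ c, c ∈ M → c ∈ M.commutant → ∀ a, (∀ i, a * D i = D i * a) → a * c = c * a := by
  obtain ⟨D, hD, hDξ⟩ := Grp.exists_dense_proj M ξ
  refine ⟨D, hD, fun c hc hc' a ha => ?_⟩
  have hcc : ∀ x ∈ M, c * x = x * c := fun x hx =>
    (VonNeumannAlgebra.mem_commutant_iff.1 hc' x hx).symm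
  set Q : (H →L[ℂ] H) → Prop := fun d => d ∈ M ∧ (∀ x ∈ M, d * x = x * d) ∧ a * d = d * a ∧
    a * star d = star d * a with hQ
  have key : ∀ v ∈ Submodule.span ℂ (Set.range fun i => D i ξ), ∃ d, Q d ∧ d ξ = v := by
    intro v hv
    induction hv using Submodule.span_induction with
    | mem v hv =>
      obtain ⟨i, rfl⟩ := hv
      exact ⟨D i, ⟨(hD i).2.1, (hD i).2.2, ha i, by rw [(hD i).1.isSelfAdjoint.star_eq, ha i]⟩,
        rfl⟩
    | zero => exact ⟨0, ⟨zero_mem M, by simp, by simp, by simp⟩, rfl⟩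
    | add u w _ _ hu hw =>
      obtain ⟨d, ⟨d1, d2, d3, d4⟩, rfl⟩ := hu
      obtain ⟨e, ⟨e1, e2, e3, e4⟩, rfl⟩ := hw
      exact ⟨d + e, ⟨add_mem d1 e1, fun x hx => by rw [add_mul, mul_add, d2 x hx, e2 x hx],
        by rw [add_mul, mul_add, d3, e3], by rw [star_add, add_mul, mul_add, d4, e4]⟩, rfl⟩
    | smul l u _ hu =>
      obtain ⟨d, ⟨d1, d2, d3, d4⟩, rfl⟩ := hu
      exact ⟨l • d, ⟨Grp.smul_mem' l d1,
        fun x hx => by rw [smul_mul_assoc, mul_smul_comm, d2 x hx],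
        by rw [smul_mul_assoc, mul_smul_comm, d3],
        by rw [star_smul, smul_mul_assoc, mul_smul_comm, d4]⟩, rfl⟩
  have hmem := hDξ c ⟨hc, hcc⟩
  rw [← SetLike.mem_coe, Submodule.topologicalClosure_coe, mem_closure_iff_seq_limit] at hmem
  obtain ⟨v, hv, hvlim⟩ := hmem
  choose d hdQ hdv using fun n => key (v n) (hv n)
  have t1 : ∀ x ∈ M, Tendsto (fun n => d n (x ξ)) atTop (𝓝 (c (x ξ))) := fun x hx => by
    rw [← mul_apply_eq_comp c, hcc x hx, mul_apply_eq_comp]
    refine ((x.continuous.tendsto _).comp hvlim).congr fun n => ?_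
    rw [Function.comp_apply, ← hdv n, ← mul_apply_eq_comp x, ← (hdQ n).2.1 x hx, mul_apply_eq_comp]
  have t2 : Tendsto (fun n => star (d n) ξ) atTop (𝓝 (star c ξ)) := by
    refine tendsto_iff_norm_sub_tendsto_zero.2
      ((tendsto_iff_norm_sub_tendsto_zero.1 hvlim).congr fun n => ?_)
    rw [← sub_apply (star (d n)), ← star_sub, ← hdv n, ← sub_apply (d n)]
    refine (norm_star_apply_of_normal ?_ ξ).symm
    obtain ⟨d1, d2, -, -⟩ := hdQ n
    rw [sub_mul, mul_sub, d2 _ (star_mem (sub_mem d1 hc)), hcc _ (star_mem (sub_mem d1 hc))]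
  refine ContinuousLinearMap.ext fun v => congrFun (Continuous.ext_on hd (a * c).continuous
    (c * a).continuous ?_) v
  rintro _ ⟨x, hx, rfl⟩
  refine ext_inner_left ℂ fun w => ?_
  refine congrFun (Continuous.ext_on hd (continuous_id.inner continuous_const)
    (continuous_id.inner continuous_const) ?_) w
  rintro _ ⟨y, hy, rfl⟩
  show ⟪y ξ, a (c (x ξ))⟫_ℂ = ⟪y ξ, c (a (x ξ))⟫_ℂ
  refine tendsto_nhds_unique
    (((continuous_const.inner a.continuous).tendsto _).comp (t1 x hx)) ?_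
  rw [← ContinuousLinearMap.adjoint_inner_left, ← ContinuousLinearMap.star_eq_adjoint,
    ← mul_apply_eq_comp (star c), show star c * y = y * star c by
      simpa [star_mul] using (congrArg star (hcc (star y) (star_mem hy))).symm,
    mul_apply_eq_comp]
  refine ((((y.continuous.tendsto _).comp t2).inner tendsto_const_nhds)).congr fun n => ?_
  obtain ⟨d1, d2, d3, -⟩ := hdQ n
  show ⟪y (star (d n) ξ), a (x ξ)⟫_ℂ = ⟪y ξ, a (d n (x ξ))⟫_ℂ
  rw [← mul_apply_eq_comp a (d n), d3, mul_apply_eq_comp,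
    ← ContinuousLinearMap.adjoint_inner_left (d n), ← ContinuousLinearMap.star_eq_adjoint,
    ← mul_apply_eq_comp y, ← mul_apply_eq_comp (star (d n))]
  congr 2
  simpa [star_mul] using congrArg star (d2 (star y) (star_mem hy))

end Vale.Agent.P096.Three.Move
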